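import Vale.Agent.P181.H914.Frame
import Vale.Agent.P181.H463.GtDef
import Vale.Agent.P181.T4.Asm

set_option autoImplicit false

open MvPolynomial
open scoped Classical

/-!
# P181, T6 (frozen definitions)

The design: pure top letters `T`, special points `S`, normal points `Fin N`; columns `C`.
-/

namespace Vale.Agent.P181.T6

open Vale.Agent.P181.FR Vale.Agent.P181.H188W Vale.Agent.P181.T4 Vale.Agent.P181.H280
open Vale.Agent.P181.H463

/-- Letters: `T` = pure top letters (the letter `t` carries the vector `e_(cls t)`), `S` = special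
points, `Fin N` = normal points. `srv c i` is the letter which serves the row `i` of the column `c`
(only `i < len c`, `i < R` matter); a row served by a point is a missing row of the column and the
point is its mark. `fx c`: the column is fixed, `bot c` are its letters in the rows `≥ R`. -/
structure Design (m R N : ℕ) (T S C : Type) [Fintype T] [Fintype S] [Fintype C] where
  cls : T → ℕ
  cls_lt : ∀ t, cls t < R
  len : C → ℕ
  len_le : ∀ c, len c ≤ m
  srv : C → ℕ → T ⊕ (S ⊕ Fin N)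
  fx : C → Prop
  fx_len : ∀ c, fx c → R ≤ len c
  bot : (c : C) → Fin (len c - R) → S ⊕ Fin N
  bot_inj : ∀ c, fx c → Function.Injective (bot c)
  serve : ∀ c, ∀ i < len c, i < R → (∃ t, srv c i = Sum.inl t ∧ cls t = i) ∨
    (fx c ∧ ∃ q, srv c i = Sum.inr q ∧ (∀ j, bot c j ≠ q) ∧
      ∀ i' < R, srv c i' = Sum.inr q → i' = i)

namespace Design

variable {m R N : ℕ} {T S C : Type} [Fintype T] [Fintype S] [Fintype C]
  (D : Design m R N T S C)

/-- The letters of a column; `lo` = the letters of the rows `≥ R` when the column is not fixed. -/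
noncomputable def J (c : C) (lo : Fin (D.len c - R) → Fin N) (j : Fin (D.len c)) :
    T ⊕ (S ⊕ Fin N) :=
  if h : (j : ℕ) < R then D.srv c j
  else if D.fx c then Sum.inr (D.bot c ⟨j - R, by omega⟩)
  else Sum.inr (Sum.inr (lo ⟨j - R, by omega⟩))

/-- the letter `p` is known to lie in the column `c` -/
def known (c : C) (p : T ⊕ (S ⊕ Fin N)) : Prop :=
  (∃ i < D.len c, i < R ∧ D.srv c i = p) ∨ (D.fx c ∧ ∃ j, Sum.inr (D.bot c j) = p)

/-- the row `i` is missing in the column `c` -/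
def miss (c : C) (i : ℕ) : Prop := i < R ∧ i < D.len c ∧ ∃ q, D.srv c i = Sum.inr q

/-- the number of columns in which `q` is the mark of the row `i` -/
noncomputable def mark (q : S ⊕ Fin N) (i : ℕ) : ℕ :=
  (Finset.univ.filter fun c => i < R ∧ i < D.len c ∧ D.srv c i = Sum.inr q).card

/-- the number of columns with missing row `i` which contain the point `p` -/
noncomputable def cap (p : S ⊕ Fin N) (i : ℕ) : ℕ :=
  (Finset.univ.filter fun c => D.miss c i ∧ D.known c (Sum.inr p)).card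

/-- the pure letters of class `r` -/
noncomputable def pure (r : ℕ) : Finset (T ⊕ (S ⊕ Fin N)) :=
  Finset.univ.filter fun p => ∃ t, p = Sum.inl t ∧ D.cls t = r

/-- **(types)** what the surplus lemma gives. -/
def Types : Prop := ∀ X : Fin R → Finset (T ⊕ (S ⊕ Fin N)),
  (∀ r r', r ≠ r' → Disjoint (X r) (X r')) →
  (∀ r, ∀ p ∈ X r, ∀ q ∈ X r, p ≠ q → ∀ c, ¬ (D.known c p ∧ D.known c q)) →
  (∀ r, (X r).card = (D.pure r).card) →
  ∃ π : Equiv.Perm (Fin R), ∀ r, X r = D.pure (π r)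

/-- **(rigid)** the labels cannot be permuted. -/
def Rigid : Prop := ∀ (π : Equiv.Perm (Fin R)) (σ : Equiv.Perm (S ⊕ Fin N)),
  (∀ p (r : Fin R), D.mark (σ p) r ≤ D.cap p (π r)) → π = 1 ∧ σ = 1

/-- **(uniq)** a point of a column with missing row `i` which is a mark of the row `i` anywhere is
the mark of the row `i` of this column. -/
def Uniq : Prop := ∀ c i, D.miss c i → ∀ q, D.known c (Sum.inr q) → 0 < D.mark q i →
  D.srv c i = Sum.inr q

/-- the number of known incidences of a letter -/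
noncomputable def inc (p : T ⊕ (S ⊕ Fin N)) : ℕ :=
  ∑ c : C, (((Finset.range (D.len c)).filter (fun i => i < R ∧ D.srv c i = p)).card +
    if D.fx c then (Finset.univ.filter fun j => Sum.inr (D.bot c j) = p).card else 0)

end Design

/-- **(C1')** the algebra. -/
def AlgStmt : Prop := ∀ (m R N b : ℕ) (T S C : Type) [Fintype T] [Fintype S] [Fintype C]
  (D : Design m R N T S C), D.Types → D.Rigid → D.Uniq → ∀ (e : Fin b ≃ T ⊕ (S ⊕ Fin N))
  (ι : Type) (lo : ι → (c : C) → Fin (D.len c - R) → Fin N),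
  LinearIndependent ℂ (fun β : ι => ∏ c ∈ Finset.univ.filter (fun c => ¬ D.fx c),
    dt (B := N) (m := m - R) (Nat.sub_le_sub_right (D.len_le c) R) (lo β c)) →
  LinearIndependent ℂ (fun (β : ι) (p : Fin b → Fin m → ℂ) => ∑ s : Equiv.Perm (Fin b),
    (∏ c, dt (D.len_le c) (fun j => e.symm (D.J c (lo β c) j))) (fun j => p (s j)))

/-- The output of the construction: a design for the partition `lam` of `k * b` (at most `m`
rows) in which every letter is used exactly `k` times, the normal point `q` being used `d q` times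
in the lower parts of the columns which are not fixed, `d` balanced; `cells` bounds the number of
cells of the fixed columns below the row `R`; `eta` is the lower part of the columns which are not
fixed. -/
def DesignFor (k b m R N cells : ℕ) (lam : Fin m → ℕ) (eta : Fin (m - R) → ℕ) : Prop :=
  ∃ (T S C : Type) (_ : Fintype T) (_ : Fintype S) (_ : Fintype C) (D : Design m R N T S C)
    (d : Fin N → ℕ), D.Types ∧ D.Rigid ∧ D.Uniq ∧
    Fintype.card T + (Fintype.card S + N) = b ∧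
    (∀ i : Fin m, (Finset.univ.filter fun c => (i : ℕ) < D.len c).card = lam i) ∧
    (∀ i : Fin (m - R), (Finset.univ.filter fun c => ¬ D.fx c ∧ R + (i : ℕ) < D.len c).card =
      eta i) ∧
    (∑ c ∈ Finset.univ.filter (fun c => D.fx c), (D.len c - R) ≤ cells) ∧
    (∀ t, D.inc (Sum.inl t) = k) ∧ (∀ s, D.inc (Sum.inr (Sum.inl s)) = k) ∧
    (∀ q, D.inc (Sum.inr (Sum.inr q)) + d q = k) ∧ (∀ i j, d i ≤ d j + 1)

/-- A family of at least `P` fillings (columns of the shape `lam`, letters `Fin b`, every letter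
used exactly `k` times) whose symmetrised products of minors are linearly independent. -/
def Family (k b n : ℕ) (lam : Fin n → ℕ) (P : ℕ) : Prop :=
  ∃ (C ι : Type) (_ : Fintype C) (_ : Fintype ι) (len : C → ℕ) (hlen : ∀ c, len c ≤ n)
    (J : ι → (c : C) → Fin (len c) → Fin b),
    (∀ i : Fin n, (Finset.univ.filter fun c => (i : ℕ) < len c).card = lam i) ∧
    (∀ β j, ∑ c, (Finset.univ.filter fun s => J β c s = j).card = k) ∧
    LinearIndependent ℂ (fun (β : ι) (p : Fin b → Fin n → ℂ) => ∑ s : Equiv.Perm (Fin b),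
      (∏ c, dt (hlen c) (J β c)) (fun j => p (s j))) ∧
    P ≤ Fintype.card ι

/-- **(C1'')** the family from a design. -/
def FamStmt : Prop := ∀ (k b n R N cells : ℕ) (lam : Fin n → ℕ) (eta : Fin (n - R) → ℕ),
  R ≤ n → Antitone lam → ∑ i, lam i = k * b → DesignFor k b n R N cells lam eta →
  ∃ P : ℕ, Family k b n lam P ∧ gt (n - R) N eta ≤ ((∑ i, eta i) + N - 1).choose (N - 1) * P

/-- **(A)** a family bounds the multiplicity. -/
def UseStmt : Prop := ∀ (k b n P : ℕ) (lam : Fin n → ℕ), Family k b n lam P →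
  P ≤ plethMult b k n lam

/-- **(cost)** removing the fixed columns (`eta` = the shape of the columns which are not
fixed). -/
def CostStmt : Prop := ∀ (k b m R N cells a : ℕ) (lam : Fin m → ℕ) (eta : Fin (m - R) → ℕ),
  R ≤ m → 1 ≤ a → Antitone lam → DesignFor k b m R N cells lam eta →
  Antitone eta ∧ gt (m - R) a (low R lam) ≤ a ^ cells * gt (m - R) a eta ∧
  (∑ i, low R lam i) ≤ (∑ i, eta i) + cells ∧ ∀ i, eta i ≤ low R lam i

/-- **(cut)** cutting the first `R` rows. -/
def CutStmt : Prop := ∀ (a n R : ℕ) (lam : Fin n → ℕ), R ≤ n → Antitone lam →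
  gt n a lam ≤ (ex lam 0 + 1) ^ (a * R) * gt (n - R) a (low R lam)

/-- The hypotheses of T6/LB6: `b` letters of degree `k`, a partition of `k * b` with at most
`n ≤ a` rows, whose first row is at most `a ^ (-ε)` times its size. -/
def Hyp (ε : ℝ) (a k b n : ℕ) (lam : Fin n → ℕ) : Prop :=
  n ≤ a ∧ (a : ℝ) ^ (1 / 2 + ε) ≤ k ∧ k ≤ a ∧ (a : ℝ) ^ (1 + ε) ≤ b ∧ b ≤ a ^ 2 ∧
  Antitone lam ∧ ∑ i, lam i = k * b ∧ (ex lam 0 : ℝ) ≤ (a : ℝ) ^ (-ε) * ((k : ℝ) * b)

/-- The numbers of the design (`l` maximises `l * ex lam (l - 1)`). -/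
def Nums (ε : ℝ) (a k b n : ℕ) (lam : Fin n → ℕ) (R N l cells : ℕ) : Prop :=
  1 ≤ l ∧ l ≤ n ∧ ((k : ℝ) * b) ≤ (1 + Real.log a) * (l * ex lam (l - 1)) ∧ 8 * R ≤ l ∧
  (k : ℝ) * R ≤ (a : ℝ) ^ (ε / 2) * (k + l) ∧ N ≤ b ∧ (b : ℝ) ≤ 2 * (1 + Real.log a) * N ∧
  100 * (cells : ℝ) * Real.log a ^ 3 ≤ (N : ℝ) * (min k l : ℕ)

/-- **(C2')** existence of the design. -/
def ExistStmt : Prop := ∀ ε : ℝ, 0 < ε → ε ≤ 1 / 2 → ∀ᶠ a : ℕ in Filter.atTop, ∀ (k b n : ℕ)
  (lam : Fin n → ℕ), Hyp ε a k b n lam →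
  ∃ (R N l cells : ℕ) (eta : Fin (n - R) → ℕ), Nums ε a k b n lam R N l cells ∧
    DesignFor k b n R N cells lam eta

/-- **(H1')** the numerical inequality. -/
def NumStmt6 : Prop := ∀ ε : ℝ, 0 < ε → ε ≤ 1 / 2 → ∀ᶠ a : ℕ in Filter.atTop, ∀ (k b n : ℕ)
  (lam : Fin n → ℕ), Hyp ε a k b n lam →
  ∀ (R N l cells : ℕ) (eta : Fin (n - R) → ℕ), Nums ε a k b n lam R N l cells →
    Antitone eta → (∀ i, eta i ≤ low R lam i) → ∑ i, low R lam i ≤ ∑ i, eta i + cells →
    ((ex lam 0 : ℝ) + 1) ^ (a * R) * (a : ℝ) ^ cells *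
        (((∑ i, eta i) + N - 1).choose (N - 1) : ℝ) * (gt (n - R) a eta : ℝ) *
        Real.exp (2 * b) ≤ (gt (n - R) N eta : ℝ)

/-- **LB6.** The lower bound. -/
def LB6 : Prop := ∀ ε : ℝ, 0 < ε → ε ≤ 1 / 2 → ∀ᶠ a : ℕ in Filter.atTop, ∀ (k b n : ℕ)
  (lam : Fin n → ℕ), Hyp ε a k b n lam →
  ∃ P : ℕ, Family k b n lam P ∧ (gt n a lam : ℝ) * Real.exp (2 * b) ≤ P

/-- **T6.** -/
def Goal : Prop := ∀ ε : ℝ, 0 < ε → ∀ᶠ a : ℕ in Filter.atTop, ∀ b : ℕ, (a : ℝ) ^ (1 + ε) ≤ b →
  ∀ lam : Fin a → ℕ, Antitone lam → ∑ i, lam i = a * b →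
    (ex lam 0 : ℝ) ≤ (a : ℝ) ^ (1 - ε) * b → plethMult a b a lam ≤ plethMult b a a lam

end Vale.Agent.P181.T6
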