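import Vale.Agent.P181.T6.Spec
import Vale.Agent.P181.T4.Big

set_option autoImplicit false

/-!
# P181, T6: assembly
-/

namespace Vale.Agent.P181.T6

open Vale.Agent.P181.FR Vale.Agent.P181.H188W Vale.Agent.P181.T4 Vale.Agent.P181.H280
open Vale.Agent.P181.H463

/-- The bound for one partition. -/
theorem lb6_one {ε : ℝ} {a k b n : ℕ} {lam : Fin n → ℕ} {R N l cells : ℕ}
    {eta : Fin (n - R) → ℕ} (ha : 1 ≤ a) (hyp : Hyp ε a k b n lam)
    (hnums : Nums ε a k b n lam R N l cells) (hdes : DesignFor k b n R N cells lam eta)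
    (hN : Antitone eta → (∀ i, eta i ≤ low R lam i) →
      ∑ i, low R lam i ≤ ∑ i, eta i + cells →
      ((ex lam 0 : ℝ) + 1) ^ (a * R) * (a : ℝ) ^ cells *
        (((∑ i, eta i) + N - 1).choose (N - 1) : ℝ) * (gt (n - R) a eta : ℝ) *
        Real.exp (2 * b) ≤ (gt (n - R) N eta : ℝ))
    (hF : FamStmt) (hC : CostStmt) (hCut : CutStmt) :
    ∃ P : ℕ, Family k b n lam P ∧ (gt n a lam : ℝ) * Real.exp (2 * b) ≤ P := by
  have hlam := hyp.2.2.2.2.2.1
  have hsum := hyp.2.2.2.2.2.2.1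
  have hRn : R ≤ n := by
    have h1 := hnums.2.1
    have h2 := hnums.2.2.2.1
    omega
  obtain ⟨c1, c2, c3, c4⟩ := hC k b n R N cells a lam eta hRn ha hlam hdes
  obtain ⟨P, hP, hgt⟩ := hF k b n R N cells lam eta hRn hlam hsum hdes
  refine ⟨P, hP, ?_⟩
  have hnum := hN c1 c4 c3
  have hcut := hCut a n R lam hRn hlam
  set Cc : ℕ := ((∑ i, eta i) + N - 1).choose (N - 1) with hCc
  have hCpos : 0 < Cc := by
    rw [hCc]
    apply Nat.choose_pos
    omega
  have h5 : gt n a lam ≤ (ex lam 0 + 1) ^ (a * R) * (a ^ cells * gt (n - R) a eta) :=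
    hcut.trans (Nat.mul_le_mul_left _ c2)
  have h6 : (gt n a lam : ℝ) ≤ ((ex lam 0 : ℝ) + 1) ^ (a * R) *
      ((a : ℝ) ^ cells * gt (n - R) a eta) := by exact_mod_cast h5
  have h7 : (gt (n - R) N eta : ℝ) ≤ (Cc : ℝ) * P := by exact_mod_cast hgt
  have hC0 : (0 : ℝ) < Cc := by exact_mod_cast hCpos
  have hex : 0 < Real.exp (2 * b) := Real.exp_pos _
  have h8 : (Cc : ℝ) * ((gt n a lam : ℝ) * Real.exp (2 * b)) ≤ (Cc : ℝ) * P := by
    calc (Cc : ℝ) * ((gt n a lam : ℝ) * Real.exp (2 * b))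
        ≤ (Cc : ℝ) * ((((ex lam 0 : ℝ) + 1) ^ (a * R) *
            ((a : ℝ) ^ cells * gt (n - R) a eta)) * Real.exp (2 * b)) := by gcongr
      _ = ((ex lam 0 : ℝ) + 1) ^ (a * R) * (a : ℝ) ^ cells * (Cc : ℝ) *
            (gt (n - R) a eta : ℝ) * Real.exp (2 * b) := by ring
      _ ≤ (gt (n - R) N eta : ℝ) := hnum
      _ ≤ _ := h7
  exact le_of_mul_le_mul_left h8 hC0

/-- **LB6** from the parts. -/
theorem lb6_of (hE : ExistStmt) (hN : NumStmt6) (hF : FamStmt) (hC : CostStmt)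
    (hCut : CutStmt) : LB6 := by
  intro ε hε hε1
  filter_upwards [hE ε hε hε1, hN ε hε hε1, Filter.eventually_ge_atTop 1] with a hEa hNa ha k b n
    lam hyp
  obtain ⟨R, N, l, cells, eta, hnums, hdes⟩ := hEa k b n lam hyp
  exact lb6_one ha hyp hnums hdes (hNa k b n lam hyp R N l cells eta hnums) hF hC hCut

/-- `ExistStmt` for `k = n = a`. -/
def ExistStmt0 : Prop := ∀ ε : ℝ, 0 < ε → ε ≤ 1 / 2 → ∀ᶠ a : ℕ in Filter.atTop, ∀ (b : ℕ)
  (lam : Fin a → ℕ), Hyp ε a a b a lam →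
  ∃ (R N l cells : ℕ) (eta : Fin (a - R) → ℕ), Nums ε a a b a lam R N l cells ∧
    DesignFor a b a R N cells lam eta

/-- `LB6` for `k = n = a`. -/
def LB60 : Prop := ∀ ε : ℝ, 0 < ε → ε ≤ 1 / 2 → ∀ᶠ a : ℕ in Filter.atTop, ∀ (b : ℕ)
  (lam : Fin a → ℕ), Hyp ε a a b a lam →
  ∃ P : ℕ, Family a b a lam P ∧ (gt a a lam : ℝ) * Real.exp (2 * b) ≤ P

theorem lb60_of (hE : ExistStmt0) (hN : NumStmt6) (hF : FamStmt) (hC : CostStmt)
    (hCut : CutStmt) : LB60 := by
  intro ε hε hε1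
  filter_upwards [hE ε hε hε1, hN ε hε hε1, Filter.eventually_ge_atTop 1] with a hEa hNa ha b
    lam hyp
  obtain ⟨R, N, l, cells, eta, hnums, hdes⟩ := hEa b lam hyp
  exact lb6_one ha hyp hnums hdes (hNa a b a lam hyp R N l cells eta hnums) hF hC hCut

theorem lb60_of_lb6 (h : LB6) : LB60 := by
  intro ε hε hε1
  filter_upwards [h ε hε hε1] with a ha b lam hyp
  exact ha a b a lam hyp

/-- **T6** from LB6. -/
theorem goal_of (hL : LB60) (hUse : UseStmt) (hU : UpStmt) (hB : BigStmt) : Goal := by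
  intro ε hε
  have hε' : 0 < min ε (1 / 2) := lt_min hε (by norm_num)
  filter_upwards [hL (min ε (1 / 2)) hε' (min_le_right _ _), Filter.eventually_ge_atTop 1] with a
    hLa ha b hb lam hlam hsum h0
  by_cases hb2 : b ≤ a ^ 2
  · have ha1 : (1 : ℝ) ≤ a := by exact_mod_cast ha
    have ha0 : (0 : ℝ) < a := by linarith
    obtain ⟨P, hP, hgt⟩ := hLa b lam ⟨le_rfl, by
        calc (a : ℝ) ^ (1 / 2 + min ε (1 / 2)) ≤ (a : ℝ) ^ (1 : ℝ) :=
              Real.rpow_le_rpow_of_exponent_le ha1 (by linarith [min_le_right ε (1 / 2)])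
          _ = a := Real.rpow_one _, le_rfl, by
        refine le_trans ?_ hb
        exact Real.rpow_le_rpow_of_exponent_le ha1 (by linarith [min_le_left ε (1 / 2)]),
        hb2, hlam, hsum, by
        have h1 : (a : ℝ) ^ (-min ε (1 / 2)) * (a * b) = (a : ℝ) ^ (1 - min ε (1 / 2)) * b := by
          rw [show (1 - min ε (1 / 2) : ℝ) = -min ε (1 / 2) + 1 by ring,
            Real.rpow_add ha0, Real.rpow_one]
          ring
        rw [h1]
        refine h0.trans ?_
        apply mul_le_mul_of_nonneg_right _ (Nat.cast_nonneg b)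
        exact Real.rpow_le_rpow_of_exponent_le ha1 (by linarith [min_le_left ε (1 / 2)])⟩
    have h1 := plethMult_le_pow (a := a) (b := b) (c := a) (R := 0) (m := a) (by omega) lam 0
      (fun i hi => absurd hi (by omega))
    have h2 : (fun i : Fin a => lam ⟨0 + i, by have := i.isLt; omega⟩) = lam := by
      funext i
      congr 1
      ext
      simp
    rw [h2] at h1
    have h3 := hU a a lam hlam
    have h4 : plethMult a b a lam ≤ gt a a lam := by
      rw [zero_mul, pow_zero, one_mul] at h1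
      exact h1.trans h3
    have h5 := hUse a b a P lam hP
    have h6 : (gt a a lam : ℝ) ≤ (P : ℝ) := by
      refine le_trans ?_ hgt
      exact le_mul_of_one_le_right (Nat.cast_nonneg _) (Real.one_le_exp (by positivity))
    have h7 : gt a a lam ≤ P := by exact_mod_cast h6
    exact h4.trans (h7.trans h5)
  · apply hB
    have h5 : (a - 1) ^ 2 ≤ a ^ 2 := Nat.pow_le_pow_left (Nat.sub_le a 1) 2
    omega

end Vale.Agent.P181.T6
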